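import Vale.Agent.Lib.P302.helper90.N5

/-!
A bin packing instance with `OPT - LP ≥ 1877/1536 > 6/5`: the five-level nested instance of
`Vale.Agent.Lib.P302.helper90.N5` (143 items, all of size in `(1/4, 1/2)`, capacity
`6 * 10^17`) needs 49 bins, because it does not contain 47 disjoint triples of items that fit
into a bin, while an explicit fractional solution of the configuration LP has value
`73387/1536`.
-/

namespace Vale.Agent.Results.P302.A0_Gap1877_1536

open Vale.Agent.Lib.P302

theorem result : ∃ (n : ℕ) (a : Fin n → ℚ), (∀ i, 0 < a i ∧ a i ≤ 1) ∧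
    (OPT a : ℝ) - LP a ≥ 1877 / 1536 :=
  Vale.Agent.Lib.P302.helper90.N5.gap_ge

end Vale.Agent.Results.P302.A0_Gap1877_1536
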