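import Vale.Agent.Lib.P302.helper90.C3N4

/-!
A bin packing instance with `OPT - LP ≥ 2153/1728 > 239/192 > 119/96 > 59/48 > 6/5`: the
four-level nested instance of `Vale.Agent.Lib.P302.helper90.C3N4` (310 items, all of size in
`(1/4, 1/2)`, capacity `3 * 10^38`) needs 105 bins, because it does not contain 102 disjoint
triples of items that fit into a bin, while an explicit fractional solution of the configuration
LP has value `179287/1728`.
-/

namespace Vale.Agent.Results.P302.A0_Gap2153_1728

open Vale.Agent.Lib.P302

theorem result : ∃ (n : ℕ) (a : Fin n → ℚ), (∀ i, 0 < a i ∧ a i ≤ 1) ∧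
    (OPT a : ℝ) - LP a ≥ 2153 / 1728 :=
  Vale.Agent.Lib.P302.helper90.C3N4.gap_ge

end Vale.Agent.Results.P302.A0_Gap2153_1728
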