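import Vale.Agent.Lib.P302.helper2.Nest4Pad

/-!
For every `N ≥ 200` there is a bin packing instance whose optimum is exactly `N` and whose gap
`OPT - LP` is at least `5713/4608 > 119/96 > 59/48 > 6/5`: the four-level nested instance of
`Vale.Agent.Lib.P302.helper2.Nest4` (200 items of size in `(1/4, 1/2)`, `OPT ≥ 68`,
`LP ≤ 307631/4608`), padded with items of size `1`.  Each added item of size `1` raises `OPT`
by exactly one and `LP` by at most one (`Vale.Agent.Lib.P302.helper2.Pad`).
-/

namespace Vale.Agent.Results.P302.A0_Gap5713_4608_EveryOPT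

open Vale.Agent.Lib.P302

theorem result : ∀ N : ℕ, 200 ≤ N → ∃ (n : ℕ) (a : Fin n → ℚ), (∀ i, 0 < a i ∧ a i ≤ 1) ∧
    OPT a = N ∧ (OPT a : ℝ) - LP a ≥ 5713 / 4608 :=
  fun N hN => Vale.Agent.Lib.P302.helper2.Nest4.every_opt N hN

end Vale.Agent.Results.P302.A0_Gap5713_4608_EveryOPT
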